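import Vale.Agent.P281.H603.TE.Lift
import Mathlib.Algebra.Module.ZLattice.Basic

/-!
# P281, project T-HKT (helper638), block FIB, piece (A2): the periods of the covering `ℂ^a × H → F`
-/

open Set Filter Metric
open scoped Topology

noncomputable section

namespace Vale.Agent.P281.H638.HKT

open Vale.Agent.P281.H64 (Cm Mark)
open Vale.Agent.P281.H64.TK (Sheets)
open Vale.Agent.P281.H603.TE (core Lifts)

/-- `Γ` acts freely -/
theorem free_of_sheets {d : ℕ} {E Γ : Type} [TopologicalSpace E] [Group Γ] [MulAction Γ E]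
    (S : Sheets d E Γ) {γ : Γ} {e : E} (h : γ • e = e) : γ = 1 := by
  obtain ⟨κ, i, z, hz, rfl⟩ := S.cover e
  have hz3 : z ∈ ball (0 : Cm d) 3 := mem_ball_zero_iff.2 (by linarith)
  have h1 : (κ⁻¹ * γ * κ) • S.σ i z = S.σ i z := by
    rw [mul_smul, mul_smul, h, inv_smul_smul]
  have h2 := (S.inj i z hz3 z hz3 _ h1).1
  have h3 : γ = κ * (κ⁻¹ * γ * κ) * κ⁻¹ := by group
  rw [h3, h2]
  group

/-! ### The lattice of a discrete cocompact image -/

section lattice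
variable {a : ℕ} {K : Type} [Group K] {l : K → Cm a}

/-- the image of `l` -/
def im (hl : ∀ k k', l (k * k') = l k + l k') : Submodule ℤ (Cm a) :=
  AddSubgroup.toIntSubmodule
    { carrier := range l
      add_mem' := by
        rintro _ _ ⟨k, rfl⟩ ⟨k', rfl⟩
        exact ⟨k * k', hl k k'⟩
      zero_mem' := ⟨1, by
        have h := hl 1 1
        rw [mul_one] at h
        simpa using h⟩
      neg_mem' := by
        rintro _ ⟨k, rfl⟩
        refine ⟨k⁻¹, ?_⟩
        have h := hl 1 1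
        rw [mul_one] at h
        have h0 : l 1 = 0 := by simpa using h
        have h' := hl k⁻¹ k
        rw [inv_mul_cancel, h0] at h'
        exact eq_neg_of_add_eq_zero_left h'.symm }

theorem mem_im (hl : ∀ k k', l (k * k') = l k + l k') {x : Cm a} :
    x ∈ im hl ↔ ∃ k, l k = x := Iff.rfl

theorem span_im (hl : ∀ k k', l (k * k') = l k + l k')
    (hC : ∃ C : Set (Cm a), IsCompact C ∧ ∀ z, ∃ k : K, z + l k ∈ C) :
    Submodule.span ℝ ((im hl : Submodule ℤ (Cm a)) : Set (Cm a)) = ⊤ := by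
  obtain ⟨C, hC, hz⟩ := hC
  by_contra hne
  obtain ⟨f, hf, hW⟩ := Submodule.exists_le_ker_of_lt_top _ (lt_top_iff_ne_top.2 hne)
  obtain ⟨v, hv⟩ : ∃ v, f v ≠ 0 := by
    by_contra hcon
    push Not at hcon
    exact hf (LinearMap.ext hcon)
  have hfc : Continuous f := f.continuous_of_finiteDimensional
  obtain ⟨M, hM⟩ := (hC.image hfc).isBounded.exists_norm_le
  obtain ⟨k, hk⟩ := hz (((M + 1) / f v) • v)
  have h1 : f (l k) = 0 := by
    have h2 : l k ∈ Submodule.span ℝ ((im hl : Submodule ℤ (Cm a)) : Set (Cm a)) :=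
      Submodule.subset_span ⟨k, rfl⟩
    exact hW h2
  have h3 := hM _ ⟨_, hk, rfl⟩
  rw [map_add, h1, add_zero, map_smul, smul_eq_mul, div_mul_cancel₀ _ hv, Real.norm_eq_abs] at h3
  have h4 := le_abs_self (M + 1)
  linarith

/-- **the marking** -/
theorem mark_of (hl : ∀ k k', l (k * k') = l k + l k') (inj : ∀ k, l k = 0 → k = 1)
    (hdisc : ∃ r > 0, ∀ k, ‖l k‖ < r → l k = 0)
    (hC : ∃ C : Set (Cm a), IsCompact C ∧ ∀ z, ∃ k : K, z + l k ∈ C) :
    Nonempty (Mark K (a + a)) := by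
  classical
  have h1 : l 1 = 0 := by
    have h := hl 1 1
    rw [mul_one] at h
    simpa using h
  have hinv : ∀ k, l k⁻¹ = - l k := fun k => by
    have h' := hl k⁻¹ k
    rw [inv_mul_cancel, h1] at h'
    exact eq_neg_of_add_eq_zero_left h'.symm
  have linj : Function.Injective l := by
    intro k k' h
    have h2 : l (k * k'⁻¹) = 0 := by rw [hl, hinv, h, add_neg_cancel]
    exact mul_inv_eq_one.1 (inj _ h2)
  have hD : DiscreteTopology (im hl) := by
    obtain ⟨r, hr, h⟩ := hdisc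
    refine DiscreteTopology.of_forall_le_norm hr fun x hx => ?_
    by_contra hlt
    obtain ⟨k, hk⟩ := x.2
    have h2 : ‖l k‖ < r := by
      rw [hk]
      exact not_le.1 hlt
    exact hx (Subtype.ext (hk.symm.trans (h k h2)))
  have hZ : IsZLattice ℝ (im hl) := ⟨span_im hl hC⟩
  have hfr : Module.Free ℤ (im hl) := ZLattice.module_free ℝ _
  have hfi : Module.Finite ℤ (im hl) := ZLattice.module_finite ℝ _
  have hrk : Module.finrank ℤ (im hl) = a + a := by
    rw [ZLattice.rank ℝ, ← Module.finrank_mul_finrank ℝ ℂ (Cm a), Complex.finrank_real_complex]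
    simp
    ring
  set b := (Module.finBasisOfFinrankEq ℤ (im hl) hrk) with hb
  have hmem : ∀ k, l k ∈ im hl := fun k => ⟨k, rfl⟩
  have hg : ∀ j, ∃ k, l k = (b j : Cm a) := fun j => (b j).2
  choose g hg using hg
  refine ⟨⟨g, fun j k => b.repr ⟨l k, hmem k⟩ j, ?_, ?_, ?_⟩⟩
  · intro j k k'
    have h2 : (⟨l (k * k'), hmem _⟩ : im hl) = ⟨l k, hmem k⟩ + ⟨l k', hmem k'⟩ :=
      Subtype.ext (hl k k')
    rw [h2, map_add, Finsupp.add_apply]
  · intro j j'
    have h2 : (⟨l (g j'), hmem _⟩ : im hl) = b j' := Subtype.ext (hg j')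
    rw [h2, b.repr_self, Finsupp.single_apply]
    by_cases h : j = j'
    · rw [if_pos h, if_pos h.symm]
    · rw [if_neg h, if_neg fun h' => h h'.symm]
  · intro α hα γ
    -- the linear map on the lattice
    have hinvf : ∀ x : im hl, ∃ k, l k = (x : Cm a) := fun x => x.2
    choose ρ hρ using hinvf
    set A : im hl →+ ℝ :=
      { toFun := fun x => α (ρ x)
        map_zero' := by
          have h2 : ρ 0 = 1 := linj (by rw [hρ, h1]; rfl)
          have h3 := hα 1 1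
          rw [mul_one] at h3
          show α (ρ 0) = 0
          rw [h2]
          linarith
        map_add' := fun x y => by
          have h2 : ρ (x + y) = ρ x * ρ y := linj (by rw [hl, hρ, hρ, hρ]; rfl)
          show α (ρ (x + y)) = α (ρ x) + α (ρ y)
          rw [h2, hα] } with hA
    have hAk : ∀ k, A ⟨l k, hmem k⟩ = α k := fun k => by
      show α (ρ _) = α k
      congr 1
      exact linj (hρ _)
    have h2 : A (∑ j, (b.repr ⟨l γ, hmem γ⟩ j) • b j) = α γ := by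
      rw [b.sum_repr]
      exact hAk γ
    rw [map_sum] at h2
    rw [← h2]
    refine Finset.sum_congr rfl fun j _ => ?_
    have h3 : A (b j) = α (g j) := by
      rw [← hAk]
      congr 1
      exact Subtype.ext (hg j).symm
    rw [map_zsmul, h3, zsmul_eq_mul, mul_comm]

end lattice

/-! ### The periods -/

section per
variable {a : ℕ} {E Γ B F H : Type} [TopologicalSpace E] [SimplyConnectedSpace E] [Group Γ]
  [MulAction Γ E] [ContinuousConstSMul Γ E] [TopologicalSpace B] [TopologicalSpace F]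
  [TopologicalSpace H] {c : E → B} {c' : F → B} {g : Cm a × H → F} {Λ : AddSubgroup (Cm a)}

theorem disc (hg : IsCoveringMap g)
    (hgΛ : ∀ x x', g x = g x' ↔ x'.1 - x.1 ∈ Λ ∧ x.2 = x'.2) (x₀ : H) :
    ∃ r > 0, ∀ v ∈ Λ, ‖v‖ < r → v = 0 := by
  obtain ⟨e, he, hge⟩ := hg.isLocalHomeomorph (0, x₀)
  have h1 : ContinuousAt (fun v : Cm a => ((v, x₀) : Cm a × H)) 0 := by fun_prop
  obtain ⟨r, hr, hb⟩ := Metric.mem_nhds_iff.1 (h1 (e.open_source.mem_nhds he))
  refine ⟨r, hr, fun v hv hn => ?_⟩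
  have h2 : ((v, x₀) : Cm a × H) ∈ e.source := hb (mem_ball_zero_iff.2 hn)
  have h3 : g (0, x₀) = g (v, x₀) := (hgΛ _ _).2 ⟨by simpa using hv, rfl⟩
  rw [hge] at h3
  exact (congrArg Prod.fst (e.injOn he h2 h3)).symm

theorem translate (hg : IsCoveringMap g)
    (hgΛ : ∀ x x', g x = g x' ↔ x'.1 - x.1 ∈ Λ ∧ x.2 = x'.2) (τ : E ≃ₜ Cm a × H) {γ : Γ}
    (hγ : ∀ e, g (τ (γ • e)) = g (τ e)) :
    ∃ v ∈ Λ, ∀ e, τ (γ • e) = ((τ e).1 + v, (τ e).2) := by
  obtain ⟨e₀⟩ : Nonempty E := inferInstance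
  obtain ⟨r, hr, hd⟩ := disc hg hgΛ (τ e₀).2
  have h1 : ∀ e, (τ (γ • e)).1 - (τ e).1 ∈ Λ ∧ (τ e).2 = (τ (γ • e)).2 := fun e =>
    (hgΛ _ _).1 (hγ e).symm
  have hcont : Continuous fun e => (τ (γ • e)).1 - (τ e).1 := by
    have h2 : Continuous fun e : E => γ • e := continuous_const_smul γ
    exact (continuous_fst.comp (τ.continuous.comp h2)).sub (continuous_fst.comp τ.continuous)
  have hlc : IsLocallyConstant fun e => (τ (γ • e)).1 - (τ e).1 := by
    rw [IsLocallyConstant.iff_eventually_eq]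
    intro e
    have h2 := hcont.continuousAt.eventually (Metric.ball_mem_nhds
      ((τ (γ • e)).1 - (τ e).1) hr)
    filter_upwards [h2] with e' he'
    have h3 : (τ (γ • e')).1 - (τ e').1 - ((τ (γ • e)).1 - (τ e).1) = 0 :=
      hd _ (Λ.sub_mem (h1 e').1 (h1 e).1) (by
        have h4 : dist ((τ (γ • e')).1 - (τ e').1) ((τ (γ • e)).1 - (τ e).1) < r := he'
        rwa [dist_eq_norm] at h4)
    exact sub_eq_zero.1 h3
  refine ⟨(τ (γ • e₀)).1 - (τ e₀).1, (h1 e₀).1, fun e => ?_⟩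
  have h5 : (τ (γ • e)).1 - (τ e).1 = (τ (γ • e₀)).1 - (τ e₀).1 :=
    hlc.apply_eq_of_preconnectedSpace e e₀
  refine Prod.ext ?_ (h1 e).2.symm
  show (τ (γ • e)).1 = (τ e).1 + ((τ (γ • e₀)).1 - (τ e₀).1)
  rw [← h5]
  abel

omit [TopologicalSpace F] in
/-- the deck transformation of a vector of `Λ` -/
theorem deck (hc : IsCoveringMap c)
    (hgΛ : ∀ x x', g x = g x' ↔ x'.1 - x.1 ∈ Λ ∧ x.2 = x'.2)
    (hcΓ : ∀ e e', c e = c e' ↔ ∃ γ : Γ, γ • e = e') (τ : E ≃ₜ Cm a × H)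
    (hτ : ∀ e, c' (g (τ e)) = c e) {v : Cm a} (hv : v ∈ Λ) :
    ∃ γ : Γ, ∀ e, τ (γ • e) = ((τ e).1 + v, (τ e).2) := by
  obtain ⟨e₀⟩ : Nonempty E := inferInstance
  set T : E → E := fun e => τ.symm ((τ e).1 + v, (τ e).2) with hT
  have hTc : Continuous T := by
    refine τ.symm.continuous.comp ?_
    exact ((continuous_fst.comp τ.continuous).add continuous_const).prodMk
      (continuous_snd.comp τ.continuous)
  have hcT : ∀ e, c (T e) = c e := by
    intro e
    rw [← hτ, ← hτ]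
    congr 1
    rw [hT]
    simp only [Homeomorph.apply_symm_apply]
    have h0 : g (τ e) = g ((τ e).1 + v, (τ e).2) := (hgΛ _ _).2 ⟨by simpa using hv, rfl⟩
    exact h0.symm
  obtain ⟨γ, hγ⟩ := (hcΓ e₀ (T e₀)).1 (hcT e₀).symm
  have h1 : T = fun e => γ • e := by
    refine hc.eq_of_comp_eq hTc (continuous_const_smul γ) ?_ e₀ hγ.symm
    funext e
    exact (hcT e).trans ((hcΓ e (γ • e)).2 ⟨γ, rfl⟩)
  refine ⟨γ, fun e => ?_⟩
  have h2 : γ • e = T e := (congrFun h1 e).symm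
  rw [h2, hT]
  simp only [Homeomorph.apply_symm_apply]

/-- **(A2)**, for a normal subgroup of finite index -/
theorem a2_of [CompactSpace F] (hc : IsCoveringMap c) (hg : IsCoveringMap g)
    (hgs : Function.Surjective g)
    (hgΛ : ∀ x x', g x = g x' ↔ x'.1 - x.1 ∈ Λ ∧ x.2 = x'.2)
    (hcΓ : ∀ e e', c e = c e' ↔ ∃ γ : Γ, γ • e = e')
    (free : ∀ (γ : Γ) (e : E), γ • e = e → γ = 1) (τ : E ≃ₜ Cm a × H)
    (hτ : ∀ e, c' (g (τ e)) = c e) (K : Subgroup Γ) [K.Normal] [hfi : K.FiniteIndex]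
    (hK : ∀ κ ∈ K, ∀ e, g (τ (κ • e)) = g (τ e)) :
    ∃ l : K → Cm a, (∀ (k : K) e, τ ((k : Γ) • e) = ((τ e).1 + l k, (τ e).2)) ∧
      (∃ C : Set (Cm a), IsCompact C ∧ ∀ z, ∃ k : K, z + l k ∈ C) ∧
      Nonempty (Mark K (a + a)) := by
  obtain ⟨e₀⟩ : Nonempty E := inferInstance
  have hl : ∀ k : K, ∃ v ∈ Λ, ∀ e, τ ((k : Γ) • e) = ((τ e).1 + v, (τ e).2) := fun k =>
    translate hg hgΛ τ (hK k k.2)
  choose l hlΛ hl using hl
  have hmul : ∀ k k', l (k * k') = l k + l k' := by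
    intro k k'
    have h1 := hl (k * k') e₀
    rw [Subgroup.coe_mul, mul_smul, hl k, hl k'] at h1
    have h2 := congrArg Prod.fst h1
    have h3 : (τ e₀).1 + l k' + l k = (τ e₀).1 + l (k * k') := h2
    have h4 : l k' + l k = l (k * k') := by
      rw [add_assoc] at h3
      exact add_left_cancel h3
    rw [← h4, add_comm]
  have hinj : ∀ k, l k = 0 → k = 1 := by
    intro k hk
    have h1 := hl k e₀
    rw [hk, add_zero] at h1
    exact Subtype.ext (free _ e₀ (τ.injective h1))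
  obtain ⟨r, hr, hd⟩ := disc hg hgΛ (τ e₀).2
  -- cocompact
  have hC : ∃ C : Set (Cm a), IsCompact C ∧ ∀ z, ∃ k : K, z + l k ∈ C := by
    set N := K.index with hN
    have hN0 : N ≠ 0 := hfi.index_ne_zero
    -- `Λ` is cocompact
    obtain ⟨R, hR⟩ : ∃ R : ℕ, ∀ z : Cm a, ∃ v ∈ Λ, z + v ∈ closedBall (0 : Cm a) R := by
      have h1 : (univ : Set F) ⊆ ⋃ n : ℕ, g '' (ball (0 : Cm a) n ×ˢ (univ : Set H)) := by
        intro x _
        obtain ⟨z, rfl⟩ := hgs x
        obtain ⟨n, hn⟩ := exists_nat_gt ‖z.1‖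
        exact mem_iUnion.2 ⟨n, z, ⟨mem_ball_zero_iff.2 hn, mem_univ _⟩, rfl⟩
      obtain ⟨R, hR⟩ := isCompact_univ.elim_directed_cover _ (fun n =>
        hg.isLocalHomeomorph.isOpenMap _ (isOpen_ball.prod isOpen_univ)) h1
        (directed_of_isDirected_le fun m n hmn => image_mono (prod_mono
          (ball_subset_ball (by exact_mod_cast hmn)) Subset.rfl))
      refine ⟨R, fun z => ?_⟩
      obtain ⟨z', ⟨hz', -⟩, hzz⟩ := hR (mem_univ (g (z, (τ e₀).2)))
      have h2 := (hgΛ _ _).1 hzz.symm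
      refine ⟨z'.1 - z, h2.1, ?_⟩
      rw [add_sub_cancel]
      exact ball_subset_closedBall hz'
    refine ⟨(fun x : Cm a => (N : ℝ) • x) '' closedBall (0 : Cm a) R,
      (isCompact_closedBall _ _).image (continuous_const_smul _), fun z => ?_⟩
    obtain ⟨v, hv, hvz⟩ := hR ((N : ℝ)⁻¹ • z)
    obtain ⟨γ, hγ⟩ := deck (Γ := Γ) hc hgΛ hcΓ τ hτ hv
    have hpow : ∀ (n : ℕ) e, τ (γ ^ n • e) = ((τ e).1 + n • v, (τ e).2) := by
      intro n
      induction n with
      | zero => intro e; simp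
      | succ n ih =>
        intro e
        rw [pow_succ, mul_smul, ih, hγ]
        simp only [succ_nsmul]
        rw [add_assoc, add_comm v]
    have hmem : γ ^ N ∈ K := Subgroup.pow_index_mem (H := K) γ
    refine ⟨⟨γ ^ N, hmem⟩, (N : ℝ)⁻¹ • z + v, hvz, ?_⟩
    have h3 := (hl ⟨γ ^ N, hmem⟩ e₀).symm.trans (hpow N e₀)
    have h4 : (τ e₀).1 + l ⟨γ ^ N, hmem⟩ = (τ e₀).1 + N • v := congrArg Prod.fst h3
    have h5 : l ⟨γ ^ N, hmem⟩ = N • v := add_left_cancel h4
    have hN1 : (N : ℝ) ≠ 0 := Nat.cast_ne_zero.2 hN0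
    show (N : ℝ) • ((N : ℝ)⁻¹ • z + v) = z + l ⟨γ ^ N, hmem⟩
    rw [h5, smul_add, smul_smul, mul_inv_cancel₀ hN1, one_smul, Nat.cast_smul_eq_nsmul]
  exact ⟨l, hl, hC, mark_of hmul hinj ⟨r, hr, fun k hk => hd _ (hlΛ k) hk⟩ hC⟩

/-- **(A2)** -/
theorem a2 {d : ℕ} [CompactSpace F] (S : Sheets d E Γ) (hc : IsCoveringMap c)
    (hc' : IsCoveringMap c') (hg : IsCoveringMap g) (hgs : Function.Surjective g)
    (hgΛ : ∀ x x', g x = g x' ↔ x'.1 - x.1 ∈ Λ ∧ x.2 = x'.2)
    (hcΓ : ∀ e e', c e = c e' ↔ ∃ γ : Γ, γ • e = e') (τ : E ≃ₜ Cm a × H)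
    (hτ : ∀ e, c' (g (τ e)) = c e) (e₀ : E) (hfin : (c' ⁻¹' {c e₀}).Finite) {m : ℕ}
    (hm : (c' ⁻¹' {c e₀}).ncard ≤ m) [(core Γ m).FiniteIndex] :
    ∃ l : core Γ m → Cm a,
      (∀ (k : core Γ m) e, τ ((k : Γ) • e) = ((τ e).1 + l k, (τ e).2)) ∧
      (∃ C : Set (Cm a), IsCompact C ∧ ∀ z, ∃ k : core Γ m, z + l k ∈ C) ∧
      Nonempty (Mark (core Γ m) (a + a)) :=
  a2_of hc hg hgs hgΛ hcΓ (fun _ _ h => free_of_sheets S h) τ hτ (core Γ m) fun _ hκ e =>
    Lifts.inv_core (Γ := Γ) (w := c) hc' (fun γ e => ((hcΓ e (γ • e)).2 ⟨γ, rfl⟩).symm) e₀ hfin hm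
      ⟨⟨fun e => g (τ e), hg.continuous.comp τ.continuous⟩, hτ⟩ hκ e

omit [ContinuousConstSMul Γ E] in
/-- the periods are additive -/
theorem l_mul {K : Subgroup Γ} {τ : E ≃ₜ Cm a × H} {l : K → Cm a}
    (hl : ∀ (k : K) e, τ ((k : Γ) • e) = ((τ e).1 + l k, (τ e).2)) (k k' : K) :
    l (k * k') = l k + l k' := by
  obtain ⟨e₀⟩ : Nonempty E := inferInstance
  have h1 := hl (k * k') e₀
  rw [Subgroup.coe_mul, mul_smul, hl k, hl k'] at h1
  have h3 : (τ e₀).1 + l k' + l k = (τ e₀).1 + l (k * k') := congrArg Prod.fst h1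
  have h4 : l k' + l k = l (k * k') := by
    rw [add_assoc] at h3
    exact add_left_cancel h3
  rw [← h4, add_comm]

/-- the fibres of a covering by a compact space are finite -/
theorem fin_fib [T1Space B] [CompactSpace F] (hc' : IsCoveringMap c') (b : B) :
    (c' ⁻¹' {b}).Finite := by
  have h1 : IsClosed (c' ⁻¹' {b}) := isClosed_singleton.preimage hc'.continuous
  have h2 : DiscreteTopology (c' ⁻¹' {b}) := (hc' b).discreteTopology_fiber
  exact h1.isCompact.finite ⟨h2⟩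

end per

end Vale.Agent.P281.H638.HKT
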