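import Vale.Agent.P281.H83.HKT.Spec
import Vale.Agent.P281.H150.Gen.Img
import Vale.Agent.P281.H64.Gen.Lift
import Vale.Agent.P281.MF.Hol

/-!
# P281, project T-HKT, class C, block R2 (helper638): the regular values of `F : E → ℂ^a`
-/

open Set Filter Metric Vale.Agent.P281 Vale.Agent.P272.K
open Vale.Agent.P281.H64 (Mark)
open Vale.Agent.P281.H64.Gen (IsSmallSet)
open Vale.Agent.P281.H150.Gen (SThin)
open scoped Topology ContDiff Manifold Pointwise

noncomputable section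

namespace Vale.Agent.P281.H638.HKT

open Vale.Agent.P281.H64.TK Vale.Agent.P281.H83.HKT

/-! ### Sard -/

/-- The critical values of a holomorphic map are contained in a countable union of thin closed
sets. -/
theorem sard {V : Type} [NormedAddCommGroup V] [NormedSpace ℂ V] [FiniteDimensional ℂ V] {q : ℕ}
    {W : Set V} (hW : IsOpen W) {G : V → Cm q} (hG : ∀ z ∈ W, AnalyticAt ℂ G z) :
    SThin (Cm q) (G '' ({z | ¬ Function.Surjective (fderiv ℂ G z)} ∩ W)) := by
  refine H150.Gen.core q _ V rfl W _ G hW hG (H150.Gen.anIn_crit hW hG) ?_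
  intro V' _ _ _ W' φ hW' hφ x hx hs
  obtain ⟨h1, h2, h3⟩ := hφ x hx
  apply h2
  have h4 := (hG _ h3).differentiableAt.hasFDerivAt.comp x h1.differentiableAt.hasFDerivAt
  have h5 : fderiv ℂ (fun v => G (φ v)) x = (fderiv ℂ G (φ x)).comp (fderiv ℂ φ x) := h4.fderiv
  rw [h5] at hs
  intro y
  obtain ⟨u, hu⟩ := hs y
  exact ⟨fderiv ℂ φ x u, hu⟩

theorem crit_open {V : Type} [NormedAddCommGroup V] [NormedSpace ℂ V] [FiniteDimensional ℂ V]
    {q : ℕ} {W : Set V} (hW : IsOpen W) {G : V → Cm q} (hG : ∀ z ∈ W, AnalyticAt ℂ G z) :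
    IsOpen (W ∩ {z | Function.Surjective (fderiv ℂ G z)}) := by
  rw [isOpen_iff_mem_nhds]
  rintro z ⟨hz, hs⟩
  obtain ⟨U, ι, h, hU, hzU, hh, hA⟩ := H150.Gen.anIn_crit hW hG z hz
  have h1 : ¬ ∀ i, h i z = 0 := by
    intro h2
    exact (hA z hzU).2 h2 hs
  push Not at h1
  obtain ⟨i, hi⟩ := h1
  filter_upwards [hW.mem_nhds hz, hU.mem_nhds hzU,
    (hh i z hzU).continuousAt.eventually_ne hi] with w h2 h3 h4
  refine ⟨h2, ?_⟩
  by_contra h5
  exact h4 ((hA w h3).1 h5 i)

/-! ### The lattice of the periods -/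

section
variable {a : ℕ}

/-- Subsets of a lattice are closed. -/
theorem closed_sub {v : Fin a ⊕ Fin a → Cm a} (hv : LinearIndependent ℝ v) {A : Set (Cm a)}
    (hA : A ⊆ (Submodule.span ℤ (range v) : Set (Cm a))) : IsClosed A := by
  have hc : Fintype.card (Fin a ⊕ Fin a) = Module.finrank ℝ (Cm a) := by
    rw [Fintype.card_sum, Fintype.card_fin]
    have : Module.finrank ℝ (Fin a → ℂ) = a * 2 := by
      rw [Module.finrank_pi_fintype]
      simp [Complex.finrank_real_complex]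
    show a + a = Module.finrank ℝ (Fin a → ℂ)
    omega
  set b : Module.Basis (Fin a ⊕ Fin a) ℝ (Cm a) := basisOfLinearIndependentOfCardEqFinrank' v hv hc
    with hb
  have hbv : (b : Fin a ⊕ Fin a → Cm a) = v := by
    rw [hb]; exact coe_basisOfLinearIndependentOfCardEqFinrank' v hv hc
  have hd : DiscreteTopology (Submodule.span ℤ (range b)) := inferInstance
  have hcl : IsClosed (Submodule.span ℤ (range b) : Set (Cm a)) :=
    AddSubgroup.isClosed_of_discrete (H := (Submodule.span ℤ (range b)).toAddSubgroup)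
  have hA' : A ⊆ (Submodule.span ℤ (range b) : Set (Cm a)) := by rw [hbv]; exact hA
  have h1 := hcl.isClosedEmbedding_subtypeVal.isClosedMap (Subtype.val ⁻¹' A) (isClosed_discrete _)
  have h2 : Subtype.val '' (Subtype.val ⁻¹' A : Set (Submodule.span ℤ (range b) : Set (Cm a))) = A := by
    rw [Subtype.image_preimage_coe]
    exact inter_eq_right.2 hA'
  rw [h2] at h1
  exact h1

variable {K : Type} [Group K]

theorem per_indep (M : Mark K (a + a)) {c : K → Fin a → ℂ} (h : 0 < cov M c) :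
    LinearIndependent ℝ (fun k : Fin a ⊕ Fin a => (c (M.g (finSumFinEquiv k)) : Cm a)) := by
  rw [Fintype.linearIndependent_iff]
  intro x hx
  have hdet := abs_pos.1 h
  have h1 : (Matrix.of fun (k l : Fin a ⊕ Fin a) => Sum.elim
    (fun j => (c (M.g (finSumFinEquiv l)) j).re) (fun j => (c (M.g (finSumFinEquiv l)) j).im) k
      : Matrix (Fin a ⊕ Fin a) (Fin a ⊕ Fin a) ℝ).mulVec x = 0 := by
    funext k
    rcases k with j | j
    · have h2 := congrArg Complex.re (congrFun hx j)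
      simp only [Finset.sum_apply, Pi.smul_apply, Complex.re_sum, Complex.real_smul,
        Complex.re_ofReal_mul, Pi.zero_apply, Complex.zero_re] at h2
      simp only [Matrix.mulVec, dotProduct, Matrix.of_apply, Sum.elim_inl, Pi.zero_apply]
      rw [← h2]
      exact Finset.sum_congr rfl fun l _ => mul_comm _ _
    · have h2 := congrArg Complex.im (congrFun hx j)
      simp only [Finset.sum_apply, Pi.smul_apply, Complex.im_sum, Complex.real_smul,
        Complex.im_ofReal_mul, Pi.zero_apply, Complex.zero_im] at h2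
      simp only [Matrix.mulVec, dotProduct, Matrix.of_apply, Sum.elim_inr, Pi.zero_apply]
      rw [← h2]
      exact Finset.sum_congr rfl fun l _ => mul_comm _ _
  have h3 := Matrix.eq_zero_of_mulVec_eq_zero hdet h1
  intro k
  exact congrFun h3 k

theorem per_sum (M : Mark K (a + a)) {c : K → Fin a → ℂ} (hc : ∀ x y, c (x * y) = c x + c y)
    (γ : K) : c γ = ∑ k : Fin a ⊕ Fin a,
      (M.φ (finSumFinEquiv k) γ) • c (M.g (finSumFinEquiv k)) := by
  funext j
  apply Complex.ext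
  · have h := M.complete (fun γ => (c γ j).re) (fun x y => by
      show (c (x * y) j).re = _
      rw [hc, Pi.add_apply, Complex.add_re]) γ
    rw [Finset.sum_apply, Complex.re_sum]
    replace h : (c γ j).re = ∑ k, (c (M.g k) j).re * (M.φ k γ : ℝ) := h
    rw [h, ← Equiv.sum_comp finSumFinEquiv]
    refine Finset.sum_congr rfl fun k _ => ?_
    rw [Pi.smul_apply, zsmul_eq_mul, ← Complex.ofReal_intCast, Complex.re_ofReal_mul, mul_comm]
  · have h := M.complete (fun γ => (c γ j).im) (fun x y => by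
      show (c (x * y) j).im = _
      rw [hc, Pi.add_apply, Complex.add_im]) γ
    rw [Finset.sum_apply, Complex.im_sum]
    replace h : (c γ j).im = ∑ k, (c (M.g k) j).im * (M.φ k γ : ℝ) := h
    rw [h, ← Equiv.sum_comp finSumFinEquiv]
    refine Finset.sum_congr rfl fun k _ => ?_
    rw [Pi.smul_apply, zsmul_eq_mul, ← Complex.ofReal_intCast, Complex.im_ofReal_mul, mul_comm]

theorem per_mem (M : Mark K (a + a)) {c : K → Fin a → ℂ} (hc : ∀ x y, c (x * y) = c x + c y) :
    range c ⊆ (Submodule.span ℤ (range fun k : Fin a ⊕ Fin a =>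
      (c (M.g (finSumFinEquiv k)) : Cm a)) : Set (Cm a)) := by
  rintro _ ⟨γ, rfl⟩
  rw [per_sum M hc γ]
  exact Submodule.sum_mem _ fun k _ => Submodule.smul_mem _ _ (Submodule.subset_span ⟨k, rfl⟩)

/-- **The periods are discrete.** -/
theorem per_disc (M : Mark K (a + a)) {c : K → Fin a → ℂ} (hc : ∀ x y, c (x * y) = c x + c y)
    (h : 0 < cov M c) : ∃ δ : ℝ, 0 < δ ∧ ∀ γ, ‖c γ‖ < δ → c γ = 0 := by
  have h1 : IsClosed (range c \ {0} : Set (Cm a)) :=
    closed_sub (per_indep M h) (sdiff_subset.trans (per_mem M hc))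
  obtain ⟨δ, hδ, hB⟩ := Metric.isOpen_iff.1 h1.isOpen_compl 0 (by simp)
  refine ⟨δ, hδ, fun γ hγ => ?_⟩
  by_contra hne
  exact hB (show c γ ∈ ball (0 : Cm a) δ by rw [mem_ball_zero_iff]; exact hγ) ⟨⟨γ, rfl⟩, hne⟩

end

/-! ### The critical values of an additive map -/

section
variable {d a : ℕ} {E K : Type} [TopologicalSpace E] [Group K] [MulAction K E]

/-- The critical values. -/
def CV (S : Sheets d E K) (F : E → Fin a → ℂ) (c : K → Fin a → ℂ) : Set (Cm a) :=
  (⋃ i, (fun z => F (S.σ i z)) '' ({z | ¬ Function.Surjective (fderiv ℂ (fun z => F (S.σ i z)) z)} ∩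
    closedBall 0 1)) + range c

variable {S : Sheets d E K} {F : E → Fin a → ℂ} {c : K → Fin a → ℂ}

theorem an_F (hF : ∀ j, Add S (fun e => F e j) (fun γ => c γ j)) (i : Fin S.N) {z : Cm d}
    (hz : z ∈ ball (0 : Cm d) 3) : AnalyticAt ℂ (fun z => (F (S.σ i z) : Cm a)) z := by
  have h1 : DifferentiableOn ℂ (fun z => (F (S.σ i z) : Cm a)) (ball 0 3) :=
    differentiableOn_pi.2 fun j => (hF j).hol i
  exact MF.analyticAt_of_differentiableOn isOpen_ball h1 hz

theorem add_F (hF : ∀ j, Add S (fun e => F e j) (fun γ => c γ j)) (γ : K) (e : E) :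
    F (γ • e) = F e + c γ := funext fun j => (hF j).add γ e

theorem c_mul [Nonempty E] (hF : ∀ j, Add S (fun e => F e j) (fun γ => c γ j)) (x y : K) :
    c (x * y) = c x + c y := by
  obtain ⟨e⟩ := ‹Nonempty E›
  have h1 := add_F hF (x * y) e
  rw [mul_smul, add_F hF, add_F hF] at h1
  have h2 : F e + c (x * y) = F e + (c x + c y) := by rw [← h1]; abel
  exact add_left_cancel h2

theorem cv_compact (hF : ∀ j, Add S (fun e => F e j) (fun γ => c γ j)) :
    IsCompact (⋃ i, (fun z => (F (S.σ i z) : Cm a)) ''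
      ({z | ¬ Function.Surjective (fderiv ℂ (fun z => F (S.σ i z)) z)} ∩ closedBall 0 1)) := by
  refine isCompact_iUnion fun i => ?_
  have hsub : closedBall (0 : Cm d) 1 ⊆ ball 0 3 := closedBall_subset_ball (by norm_num)
  have h1 : IsCompact ({z | ¬ Function.Surjective (fderiv ℂ (fun z => (F (S.σ i z) : Cm a)) z)} ∩
      closedBall (0 : Cm d) 1) := by
    have h2 : ({z | ¬ Function.Surjective (fderiv ℂ (fun z => (F (S.σ i z) : Cm a)) z)} ∩
        closedBall (0 : Cm d) 1) = closedBall (0 : Cm d) 1 \ (ball 0 3 ∩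
          {z | Function.Surjective (fderiv ℂ (fun z => (F (S.σ i z) : Cm a)) z)}) := by
      ext z
      constructor
      · rintro ⟨h3, h4⟩
        exact ⟨h4, fun h5 => h3 h5.2⟩
      · rintro ⟨h3, h4⟩
        exact ⟨fun h5 => h4 ⟨hsub h3, h5⟩, h3⟩
    rw [h2]
    exact (isCompact_closedBall 0 1).diff (crit_open isOpen_ball fun z hz => an_F hF i hz)
  refine h1.image_of_continuousOn fun z hz => ?_
  exact (an_F hF i (hsub hz.2)).continuousAt.continuousWithinAt

theorem cv_closed [Nonempty E] (hF : ∀ j, Add S (fun e => F e j) (fun γ => c γ j))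
    (M : Mark K (a + a)) (h : 0 < cov M c) : IsClosed (CV S F c) := by
  have h1 : IsClosed (range c : Set (Cm a)) :=
    closed_sub (per_indep M h) (per_mem M (c_mul hF))
  exact h1.add_left_of_isCompact (cv_compact hF)

theorem cv_sthin [Nonempty E] (hF : ∀ j, Add S (fun e => F e j) (fun γ => c γ j))
    (M : Mark K (a + a)) : SThin (Cm a) (CV S F c) := by
  have h1 : SThin (Cm a) (⋃ m : Fin a ⊕ Fin a → ℤ, ⋃ i : Fin S.N,
      (fun z => (F (S.σ i z) : Cm a) + ∑ k, m k • c (M.g (finSumFinEquiv k))) ''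
        ({z | ¬ Function.Surjective (fderiv ℂ (fun z => (F (S.σ i z) : Cm a) +
          ∑ k, m k • c (M.g (finSumFinEquiv k))) z)} ∩ ball 0 3)) := by
    refine SThin.iUnion fun m => SThin.iUnion fun i => ?_
    exact sard isOpen_ball fun z hz => (an_F hF i hz).add analyticAt_const
  refine h1.mono ?_
  rintro _ ⟨t, ht, _, ⟨γ, rfl⟩, rfl⟩
  obtain ⟨i, z, ⟨hz1, hz2⟩, rfl⟩ := mem_iUnion.1 ht
  refine mem_iUnion.2 ⟨fun k => M.φ (finSumFinEquiv k) γ, mem_iUnion.2 ⟨i, z, ⟨?_, ?_⟩, ?_⟩⟩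
  · show ¬ Function.Surjective (fderiv ℂ (fun z => (F (S.σ i z) : Cm a) +
          ∑ k, (M.φ (finSumFinEquiv k) γ) • c (M.g (finSumFinEquiv k))) z)
    rw [fderiv_add_const]
    exact hz1
  · exact closedBall_subset_ball (by norm_num) hz2
  · show F (S.σ i z) + _ = F (S.σ i z) + c γ
    rw [← per_sum M (c_mul hF) γ]

theorem cv_per [Nonempty E] (hF : ∀ j, Add S (fun e => F e j) (fun γ => c γ j)) (t : Cm a)
    (γ : K) : t + c γ ∈ CV S F c ↔ t ∈ CV S F c := by
  have h0 : ∀ γ (t : Cm a), t ∈ CV S F c → t + c γ ∈ CV S F c := by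
    rintro γ _ ⟨t, ht, _, ⟨γ', rfl⟩, rfl⟩
    refine ⟨t, ht, _, ⟨γ' * γ, rfl⟩, ?_⟩
    show t + c (γ' * γ) = t + c γ' + c γ
    rw [c_mul hF, add_assoc]
  refine ⟨fun h => ?_, h0 γ t⟩
  have h1 := h0 γ⁻¹ _ h
  have h2 : c γ + c γ⁻¹ = 0 := by
    have h3 := c_mul hF γ γ⁻¹
    have h4 := c_mul hF 1 1
    rw [mul_inv_cancel] at h3
    rw [mul_one] at h4
    have h5 : c 1 = 0 := by
      have : c 1 + 0 = c 1 + c 1 := by rw [add_zero]; exact h4
      exact (add_left_cancel this).symm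
    rw [← h3, h5]
  rw [add_assoc, h2, add_zero] at h1
  exact h1

/-- Surjectivity does not depend on the sheet. -/
theorem surj_change (hF : ∀ j, Add S (fun e => F e j) (fun γ => c γ j)) {i j : Fin S.N}
    {z w : Cm d} (hz : z ∈ ball (0 : Cm d) 3) (hw : w ∈ ball (0 : Cm d) 3) {γ : K}
    (h : S.σ i z = γ • S.σ j w)
    (hs : Function.Surjective (fderiv ℂ (fun z => (F (S.σ i z) : Cm a)) z)) :
    Function.Surjective (fderiv ℂ (fun z => (F (S.σ j z) : Cm a)) w) := by
  obtain ⟨θ, hθ, hθz, hev⟩ := S.hol i j z hz w hw γ h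
  have h1 : (fun u => (F (S.σ i u) : Cm a)) =ᶠ[𝓝 z] fun u => (F (S.σ j (θ u)) : Cm a) + c γ := by
    filter_upwards [hev] with u hu
    rw [hu, add_F hF]
  have h2 : DifferentiableAt ℂ (fun z => (F (S.σ j z) : Cm a)) (θ z) := by
    rw [hθz]; exact (an_F hF j hw).differentiableAt
  have h3 := h2.hasFDerivAt.comp z hθ.differentiableAt.hasFDerivAt
  have h4 : HasFDerivAt (fun u => (F (S.σ j (θ u)) : Cm a) + c γ)
      ((fderiv ℂ (fun z => (F (S.σ j z) : Cm a)) (θ z)).comp (fderiv ℂ θ z)) z := h3.add_const _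
  rw [h1.fderiv_eq, h4.fderiv, hθz] at hs
  intro y
  obtain ⟨u, hu⟩ := hs y
  exact ⟨_, hu⟩

theorem surj_of_notMem (hF : ∀ j, Add S (fun e => F e j) (fun γ => c γ j)) {i : Fin S.N}
    {z : Cm d} (hz : z ∈ ball (0 : Cm d) 3) (h : F (S.σ i z) ∉ CV S F c) :
    Function.Surjective (fderiv ℂ (fun z => (F (S.σ i z) : Cm a)) z) := by
  by_contra hs
  apply h
  obtain ⟨γ, j, w, hw, hγ⟩ := S.cover (S.σ i z)
  have hw3 : w ∈ ball (0 : Cm d) 3 := by rw [mem_ball_zero_iff]; linarith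
  refine ⟨F (S.σ j w), mem_iUnion.2 ⟨j, w, ⟨?_, ?_⟩, rfl⟩, c γ, ⟨γ, rfl⟩, ?_⟩
  · intro hs'
    apply hs
    refine surj_change hF hw3 hz (γ := γ⁻¹) ?_ hs'
    rw [← hγ, inv_smul_smul]
  · rw [mem_closedBall_zero_iff]; exact hw.le
  · show F (S.σ j w) + c γ = F (S.σ i z)
    rw [← hγ, add_F hF]

theorem row_of_surj (hF : ∀ j, Add S (fun e => F e j) (fun γ => c γ j)) {i : Fin S.N}
    {z : Cm d} (hz : z ∈ ball (0 : Cm d) 3)
    (hs : Function.Surjective (fderiv ℂ (fun z => (F (S.σ i z) : Cm a)) z)) :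
    LinearIndependent ℂ (dF S F i z).row := by
  rw [Fintype.linearIndependent_iff]
  intro s h0 j
  obtain ⟨v, hv⟩ := hs (Pi.single j 1)
  have hda := (an_F hF i hz).differentiableAt
  have h1 : ∀ l, fderiv ℂ (fun z => (F (S.σ i z) : Cm a)) z v l =
      ∑ k, v k * dF S F i z l k := by
    intro l
    have h2 : fderiv ℂ (fun z => F (S.σ i z) l) z v =
        fderiv ℂ (fun z => (F (S.σ i z) : Cm a)) z v l := by
      rw [fderiv_apply hda l]
      rfl
    rw [← h2]
    have h3 : v = ∑ k, v k • (Pi.single k (1 : ℂ) : Cm d) := by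
      funext l
      simp [Finset.sum_apply, Pi.single_apply]
    conv_lhs => rw [h3]
    rw [map_sum]
    refine Finset.sum_congr rfl fun k _ => ?_
    rw [map_smul, smul_eq_mul]
    rfl
  have h4 : ∑ l, s l * fderiv ℂ (fun z => (F (S.σ i z) : Cm a)) z v l = 0 := by
    simp only [h1, Finset.mul_sum]
    rw [Finset.sum_comm]
    refine Finset.sum_eq_zero fun k _ => ?_
    have h5 := congrFun h0 k
    simp only [Finset.sum_apply, Pi.smul_apply, smul_eq_mul, Pi.zero_apply, Matrix.row] at h5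
    calc ∑ l, s l * (v k * dF S F i z l k) = v k * ∑ l, s l * dF S F i z l k := by
          rw [Finset.mul_sum]
          exact Finset.sum_congr rfl fun l _ => by ring
      _ = 0 := by rw [h5, mul_zero]
  rw [hv] at h4
  simpa [Pi.single_apply] using h4

/-- **R2** -/
theorem reg [Nonempty E] (hF : ∀ j, Add S (fun e => F e j) (fun γ => c γ j))
    (M : Mark K (a + a)) (h : 0 < cov M c) :
    ∃ B : Set (Cm a), IsClosed B ∧ IsSmallSet (Cm a) B ∧ (∀ t γ, t + c γ ∈ B ↔ t ∈ B) ∧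
      ∀ i, ∀ z ∈ ball (0 : Cm d) 3, F (S.σ i z) ∉ B →
        Function.Surjective (fderiv ℂ (fun z => (F (S.σ i z) : Cm a)) z) ∧
        LinearIndependent ℂ (dF S F i z).row :=
  ⟨CV S F c, cv_closed hF M h, ⟨cv_closed hF M h, cv_sthin hF M⟩, fun t γ => cv_per hF t γ,
    fun _ _ hz hn => ⟨surj_of_notMem hF hz hn, row_of_surj hF hz (surj_of_notMem hF hz hn)⟩⟩

theorem small_dense {B : Set (Cm a)} (hB : IsSmallSet (Cm a) B) : Dense Bᶜ :=
  H64.Gen.Cov.dense_compl (n := a) (Z := Cm a) hB.2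

/-- A point near a given regular point, whose image is a regular value; all points over a small ball
are regular. -/
theorem exists_reg [Nonempty E] (hF : ∀ j, Add S (fun e => F e j) (fun γ => c γ j))
    (M : Mark K (a + a)) (h : 0 < cov M c) {i : Fin S.N} {z₀ : Cm d}
    (hz₀ : z₀ ∈ ball (0 : Cm d) 3)
    (hs : Function.Surjective (fderiv ℂ (fun z => (F (S.σ i z) : Cm a)) z₀)) {O : Set (Cm d)}
    (hO : O ∈ 𝓝 z₀) : ∃ z₁ ∈ O, z₁ ∈ ball (0 : Cm d) 3 ∧ ∃ ε : ℝ, 0 < ε ∧
      ∀ (γ : K) j, ∀ w ∈ ball (0 : Cm d) 3, ‖F (γ • S.σ j w) - F (S.σ i z₁)‖ < ε →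
        Function.Surjective (fderiv ℂ (fun z => (F (S.σ j z) : Cm a)) w) ∧
        LinearIndependent ℂ (dF S F j w).row := by
  obtain ⟨B, hBc, hBs, hBp, hB⟩ := reg (S := S) hF M h
  have h1 : HasStrictFDerivAt (fun z => (F (S.σ i z) : Cm a))
      (fderiv ℂ (fun z => (F (S.σ i z) : Cm a)) z₀) z₀ := (an_F hF i hz₀).hasStrictFDerivAt
  have h2 := h1.map_nhds_eq_of_surj (LinearMap.range_eq_top.2 hs)
  have h3 : (fun z => (F (S.σ i z) : Cm a)) '' (O ∩ ball 0 3) ∈ 𝓝 (F (S.σ i z₀) : Cm a) := by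
    rw [← h2]
    exact image_mem_map (inter_mem hO (isOpen_ball.mem_nhds hz₀))
  obtain ⟨t, htB, z₁, ⟨hz₁, hz₁'⟩, rfl⟩ := (small_dense hBs).inter_nhds_nonempty h3
  obtain ⟨ε, hε, hball⟩ := Metric.isOpen_iff.1 hBc.isOpen_compl _ htB
  refine ⟨z₁, hz₁, hz₁', ε, hε, fun γ j w hw hlt => ?_⟩
  have h4 : F (γ • S.σ j w) ∉ B := hball (by rw [mem_ball, dist_eq_norm]; exact hlt)
  rw [add_F hF, hBp] at h4
  exact hB j w hw h4

end

end Vale.Agent.P281.H638.HKT
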